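import Vale.Agent.P016.Rank

namespace Vale.Agent.Results.P016.FewExceptions

open Vale.Agent.P016 Filter

theorem result : ∃ (R : ℕ) (c κ x₀ : ℝ), 0 < c ∧ 0 < κ ∧
    (∀ x, x₀ ≤ x → ∀ a : Fin R → ℤ, (∀ i, Adm (a i).natAbs) → MulIndep a →
      (∀ i, (|a i| : ℝ) ≤ Real.exp (x ^ κ)) → ∃ i, c * x / Real.log x ≤ NA (a i) x) ∧
    (∀ x, x₀ ≤ x → ∀ S : Finset ℕ, (∀ p ∈ S, p.Prime ∧ (p : ℝ) ≤ Real.exp (x ^ κ) ∧
      (NA p x : ℝ) < c * x / Real.log x) → S.card ≤ R) ∧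
    (∀ x, x₀ ≤ x → ∀ y : ℕ, (y : ℝ) ≤ Real.exp (x ^ κ) → ∀ S : Finset ℤ,
      (∀ a ∈ S, Adm a.natAbs ∧ |a| ≤ y ∧ (NA a x : ℝ) < c * x / Real.log x) →
      S.card ≤ 2 * (Nat.log 2 y + 1) ^ R) ∧
    (∀ S : Finset ℕ, (∀ p ∈ S, p.Prime ∧
      ¬ ∃ᶠ x : ℝ in atTop, c * x / Real.log x ≤ NA p x) → S.card ≤ R) := by
  classical
  obtain ⟨R, x₀, x1, H⟩ := core
  have lg : ∀ {x : ℝ} {b : ℕ}, b ≠ 0 → (b : ℝ) ≤ Real.exp x → Real.log b ≤ x := fun h0 h =>
    (Real.log_le_iff_le_exp (by exact_mod_cast Nat.pos_of_ne_zero h0)).2 h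
  have hp : ∀ x, x₀ ≤ x → ∀ S : Finset ℕ, (∀ p ∈ S, p.Prime ∧
      (p : ℝ) ≤ Real.exp (x ^ (1 / 22000 : ℝ)) ∧
      (NA p x : ℝ) < 1 / 36000000 * x / Real.log x) → S.card ≤ R := by
    intro x hx S hS
    by_contra hc
    have h1 : R ≤ Fintype.card (S.erase 3) := by
      have := Finset.pred_card_le_card_erase (s := S) (a := 3)
      rw [Fintype.card_coe]; omega
    obtain ⟨e⟩ : Nonempty (Fin R ↪ S.erase 3) := Function.Embedding.nonempty_of_card_le (by
      rwa [Fintype.card_fin])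
    have h2 := fun i => Finset.mem_erase.1 (e i).2
    obtain ⟨i, hi⟩ := H x hx (fun i => (e i : ℕ)) (fun i => adm_prime (hS _ (h2 i).2).1 (h2 i).1)
      (indep_primes (fun i => (hS _ (h2 i).2).1) (Subtype.val_injective.comp e.injective))
      fun i => lg (hS _ (h2 i).2).1.ne_zero (hS _ (h2 i).2).2.1
    have h3 : ((GG (e i : ℕ) x).card : ℝ) ≤ NA (e i : ℕ) x := by
      exact_mod_cast GG_le ((e i : ℕ) : ℤ) (x := x) (by linarith)
    linarith [(hS _ (h2 i).2).2.2]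
  refine ⟨R, 1 / 36000000, 1 / 22000, x₀, by norm_num, by norm_num,
    fun x hx a ha hi hl => ?_, hp, fun x hx y hy S hS => ?_, fun S hS => ?_⟩
  · obtain ⟨i, h⟩ := H x hx (fun i => (a i).natAbs) ha (indep_abs hi) fun i =>
      lg (by have := (ha i).1; omega) (by rw [Nat.cast_natAbs, Int.cast_abs]; exact hl i)
    exact ⟨i, h.trans (by exact_mod_cast GG_le (a i) (x := x) (by linarith))⟩
  · have h1 := Finset.card_le_mul_card_image (f := Int.natAbs) S 2 fun b _ =>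
      (Finset.card_le_card (t := {(b : ℤ), -(b : ℤ)}) fun a ha => by
        have := (Finset.mem_filter.1 ha).2
        simp only [Finset.mem_insert, Finset.mem_singleton]
        omega).trans Finset.card_le_two
    refine h1.trans (Nat.mul_le_mul_left _ (card_le_of_dep _ (fun b hb => ?_) fun b hb hi => ?_))
    · obtain ⟨a, ha, rfl⟩ := Finset.mem_image.1 hb
      have h2 := (hS a ha).1.1
      have h3 := abs_le.1 (hS a ha).2.1
      omega
    · choose a ha1 ha2 using fun i => Finset.mem_image.1 (hb i)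
      obtain ⟨i, h⟩ := H x hx b (fun i => ha2 i ▸ (hS _ (ha1 i)).1) hi fun i => by
        have h2 := (hS _ (ha1 i)).1.1
        have h3 := abs_le.1 (hS _ (ha1 i)).2.1
        have h4 := ha2 i
        exact lg (by omega) (le_trans (by exact_mod_cast (by omega : b i ≤ y)) hy)
      have h3 : ((GG (b i) x).card : ℝ) ≤ NA (a i) x := by
        rw [← ha2 i]; exact_mod_cast GG_le (a i) (x := x) (by linarith)
      linarith [(hS _ (ha1 i)).2.2]
  · have h1 : ∀ᶠ x : ℝ in atTop, ∀ p ∈ S, (p : ℝ) ≤ Real.exp (x ^ (1 / 22000 : ℝ)) ∧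
        (NA p x : ℝ) < 1 / 36000000 * x / Real.log x := by
      rw [eventually_all_finset]
      intro p hp'
      refine ((Real.tendsto_exp_atTop.comp (tendsto_rpow_atTop (by norm_num))).eventually_ge_atTop
        (p : ℝ)).and ?_
      simpa only [not_frequently, not_le] using (hS p hp').2
    obtain ⟨x, h2, h3⟩ := (h1.and (eventually_ge_atTop x₀)).exists
    exact hp x h3 S fun p hp' => ⟨(hS p hp').1, h2 p hp'⟩

end Vale.Agent.Results.P016.FewExceptions
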